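import Vale.Agent.P158.NB.Prob
import Vale.Agent.P158.NB.Lowered
import Vale.Agent.P158.NB.Lines.Meas

/-!
# P158 (iv): non-joining positions on a line and the effect of lowering

A position `u` of a line `γ` is marked when a short path of cheap edges off the line leads from
`γ u` to a vertex whose geodesics do not join `γ`. Lowering many strong edges of the window
`[0, M)` erases the marks at `u ≤ 0` and keeps a mark at `D`.
-/

namespace Vale.Agent.P158.NB.Join

open Vale.Agent.P158 Filter Topology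

/-- `u` is a marked position of `γ`. -/
def JRep (t : Conf) (R c : ℕ) (γ : ℤ → V) (u : ℤ) : Prop :=
  ∃ y P l, l ≤ R ∧ PathIn Set.univ (γ u) y P l ∧
    (∀ k < l, t s(P k, P (k + 1)) ≤ c ∧ ¬ LineUses γ s(P k, P (k + 1))) ∧ ¬ Joins t γ y

/-- `D` is marked and no position up to `0` is. -/
def JPos (t : Conf) (R c D : ℕ) (γ : ℤ → V) : Prop :=
  JRep t R c γ (D : ℤ) ∧ ∀ u : ℤ, u ≤ 0 → ¬ JRep t R c γ u

lemma geoEx_ok {t : Conf} (ht : OK t) : GeoEx t := fun x y => by
  obtain ⟨v, L, g⟩ := exists_geoIn ht (reach_univ x y)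
  obtain ⟨h, -, h0, hL⟩ := geoIn_univ_iff.1 g
  exact ⟨v, L, h, h0, hL⟩

/-! ## Changes of coordinates -/

section

variable {t : Conf} {R c D : ℕ} {γ : ℤ → V}

lemma lineUses_shift (d : ℤ) {e : Sym2 V} :
    LineUses (fun i => γ (i + d)) e ↔ LineUses γ e := by
  constructor
  · rintro ⟨i, h⟩
    exact ⟨i + d, by rw [← h, add_right_comm]⟩
  · rintro ⟨i, h⟩
    refine ⟨i - d, ?_⟩
    simp only [sub_add_cancel, add_right_comm _ (1 : ℤ) d]
    exact h

lemma joins_shift (d : ℤ) {x : V} : Joins t (fun i => γ (i + d)) x ↔ Joins t γ x := by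
  constructor
  · rintro ⟨k, h⟩
    refine ⟨k + d, fun n hn => ?_⟩
    simpa using h (n - d) (by omega)
  · rintro ⟨k, h⟩
    refine ⟨k - d, fun n hn => ?_⟩
    simpa using h (n + d) (by omega)

lemma jrep_shift (d u : ℤ) : JRep t R c (fun i => γ (i + d)) u ↔ JRep t R c γ (u + d) := by
  simp only [JRep, lineUses_shift, joins_shift]

lemma isLine_shift (d : ℤ) (h : IsLine t γ) : IsLine t (fun i => γ (i + d)) := by
  refine ⟨fun a b e => add_right_cancel (h.inj e), fun i => ?_, fun i L => ?_⟩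
  · rw [add_right_comm]
    exact h.adj _
  · simpa only [add_right_comm i _ d] using h.geo (i + d) L

/-- Two positions of one line are less than `D` apart. -/
lemma jpos_close {δ : ℤ → V} {d : ℤ} (h : ∀ i, δ i = γ (i + d)) (h1 : JPos t R c D γ)
    (h2 : JPos t R c D δ) : |d| < D := by
  obtain rfl : δ = fun i => γ (i + d) := funext h
  obtain ⟨a, b⟩ := h1
  obtain ⟨a', b'⟩ := h2
  rw [jrep_shift] at a'
  by_contra hd
  rcases le_abs.1 (not_lt.1 hd) with hd | hd
  · refine b' (D - d) (by omega) ?_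
    rw [jrep_shift, sub_add_cancel]
    exact a
  · exact b _ (by omega) a'

end

section

variable (z : V) (t : Conf)

lemma Tf_shiftW (a b : V) : Tf (shiftW z t) a b = Tf t (a + z) (b + z) := by
  unfold Tf T
  congr 1
  ext r
  constructor
  · rintro ⟨v, L, h, rfl⟩
    exact ⟨fun i => v i + z, L, ⟨fun k hk => (Lines.adj_add z _ _).2 (h.path k hk),
      fun _ _ => trivial, congrArg (· + z) h.first, congrArg (· + z) h.last⟩,
      (Lines.cost_shiftW z t v L).symm⟩
  · rintro ⟨v, L, h, rfl⟩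
    refine ⟨fun i => v i - z, L, ⟨fun k hk => ?_, fun _ _ => trivial, by simp [h.first],
      by simp [h.last]⟩, by simp [Lines.cost_shiftW]⟩
    exact (Lines.adj_add z _ _).1 (by simpa using h.path k hk)

lemma shiftW_neg : shiftW (-z) (shiftW z t) = t := by
  funext e
  simp [shiftW, Sym2.map_map]

variable {z t} {γ : ℤ → V}

lemma isLine_translate (h : IsLine (shiftW z t) γ) : IsLine t (fun i => γ i + z) := by
  refine ⟨fun a b e => h.inj (add_right_cancel e), fun i => ?_, fun i L => ?_⟩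
  · exact (Lines.adj_add z _ _).2 (h.adj i)
  · exact (Lines.isGeo_shiftW z t _ L).1 (h.geo i L)

lemma lineUses_translate {a b : V} :
    LineUses (fun i => γ i + z) s(a + z, b + z) ↔ LineUses γ s(a, b) := by
  refine exists_congr fun i => ?_
  rw [← Sym2.map_mk (fun v => v + z), ← Sym2.map_mk (fun v => v + z)]
  exact (Sym2.map.injective (add_left_injective z)).eq_iff

lemma joins_translate {x : V} :
    Joins t (fun i => γ i + z) (x + z) ↔ Joins (shiftW z t) γ x := by
  simp only [Joins, Tf_shiftW]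

lemma jrep_translate {R c : ℕ} {u : ℤ} :
    JRep t R c (fun i => γ i + z) u ↔ JRep (shiftW z t) R c γ u := by
  constructor
  · rintro ⟨y, P, l, hl, hP, hk, hJ⟩
    refine ⟨y - z, fun i => P i - z, l, hl, ⟨fun k hk => ?_, fun _ _ => trivial,
      by simp [hP.first], by simp [hP.last]⟩, fun k hkl => ?_, ?_⟩
    · exact (Lines.adj_add z _ _).1 (by simpa using hP.path k hk)
    · obtain ⟨h1, h2⟩ := hk k hkl
      rw [← sub_add_cancel (P k) z, ← sub_add_cancel (P (k + 1)) z] at h1 h2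
      exact ⟨by simpa [shiftW] using h1, fun h => h2 (lineUses_translate.2 h)⟩
    · rwa [← joins_translate, sub_add_cancel]
  · rintro ⟨y, P, l, hl, hP, hk, hJ⟩
    refine ⟨y + z, fun i => P i + z, l, hl, ⟨fun k hk => ?_, fun _ _ => trivial,
      by simp [hP.first], by simp [hP.last]⟩, fun k hkl => ?_, ?_⟩
    · exact (Lines.adj_add z _ _).2 (hP.path k hk)
    · obtain ⟨h1, h2⟩ := hk k hkl
      exact ⟨by simpa [shiftW] using h1, fun h => h2 (lineUses_translate.1 h)⟩
    · rwa [joins_translate]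

lemma jpos_translate {R c D : ℕ} :
    JPos t R c D (fun i => γ i + z) ↔ JPos (shiftW z t) R c D γ := by
  simp only [JPos, jrep_translate]

end

/-- A vertex with no joining geodesics marks some position of the line. -/
lemma exists_jrep {t : Conf} (hp : ∀ e, 0 < t e) {γ : ℤ → V} {x : V} (hJ : ¬ Joins t γ x) :
    ∃ (R c : ℕ) (u : ℤ), JRep t R c γ u := by
  classical
  obtain ⟨v, L, hv⟩ := reach_univ x (γ 0)
  have hex : ∃ j, j ≤ L ∧ v j ∈ Set.range γ := ⟨L, le_rfl, 0, hv.last.symm⟩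
  set j := Nat.find hex with hj
  obtain ⟨hjL, u, hu⟩ : j ≤ L ∧ v j ∈ Set.range γ := Nat.find_spec hex
  have hmin : ∀ i < j, v i ∉ Set.range γ := fun i hi h =>
    Nat.find_min hex hi ⟨le_trans hi.le hjL, h⟩
  obtain ⟨c, hc⟩ := exists_nat_ge (cost t v L)
  refine ⟨j, c, u, x, P158.rev v j, j, le_rfl, hu ▸ (hv.take hjL).reverse, fun k hk => ?_, hJ⟩
  have hedge : s(P158.rev v j k, P158.rev v j (k + 1)) =
      s(v (j - (k + 1)), v (j - (k + 1) + 1)) := by
    unfold P158.rev
    rw [Sym2.eq_swap, show j - (k + 1) + 1 = j - k by omega]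
  rw [hedge]
  refine ⟨(edge_le_cost (fun e => (hp e).le) (by omega)).trans hc, ?_⟩
  rintro ⟨i, hi⟩
  rcases Sym2.eq_iff.1 hi with ⟨a, -⟩ | ⟨-, a⟩
  · exact hmin (j - (k + 1)) (by omega) ⟨i, a⟩
  · exact hmin (j - (k + 1)) (by omega) ⟨i + 1, a⟩

/-! ## Lowering -/

section

variable {t t' : Conf} {π : Finset (Sym2 V)} (hle : ∀ e, t' e ≤ t e)
  (heq : ∀ e, e ∉ π → t' e = t e)

include hle heq in
/-- A simple path loses at most the whole gain, and exactly that if it contains `π`. -/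
lemma cost_gain {v : ℕ → V} {L : ℕ} (hv : Set.InjOn v (Set.Iic L)) :
    cost t v L ≤ cost t' v L + ∑ e ∈ π, (t e - t' e) ∧
      ((∀ e ∈ π, Uses v L e) → cost t v L = cost t' v L + ∑ e ∈ π, (t e - t' e)) := by
  classical
  set I := (Finset.range L).image fun k => s(v k, v (k + 1)) with hI
  have hinj : Set.InjOn (fun k => s(v k, v (k + 1))) ↑(Finset.range L) := fun i hi j hj h =>
    path_edge_inj hv (Finset.mem_range.1 hi) (Finset.mem_range.1 hj) h
  have e1 : cost t v L - cost t' v L = ∑ e ∈ I, (t e - t' e) := by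
    rw [hI, Finset.sum_image hinj, Finset.sum_sub_distrib]
    rfl
  have e2 : ∑ e ∈ I, (t e - t' e) = ∑ e ∈ I ∩ π, (t e - t' e) :=
    (Finset.sum_subset Finset.inter_subset_left fun e he hne => by
      rw [heq e fun h => hne (Finset.mem_inter.2 ⟨he, h⟩), sub_self]).symm
  constructor
  · have := Finset.sum_le_sum_of_subset_of_nonneg (f := fun e => t e - t' e)
      (Finset.inter_subset_right : I ∩ π ⊆ π) fun e _ _ => sub_nonneg.2 (hle e)
    linarith
  · intro h
    have hs : π ⊆ I := fun e he => by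
      obtain ⟨k, hk, hke⟩ := h e he
      exact Finset.mem_image.2 ⟨k, Finset.mem_range.2 hk, hke⟩
    rw [Finset.inter_eq_right.2 hs] at e2
    linarith

end

lemma line_edge_inj {γ : ℤ → V} (h : Function.Injective γ) {i j : ℤ}
    (e : s(γ i, γ (i + 1)) = s(γ j, γ (j + 1))) : i = j := by
  rcases Sym2.eq_iff.1 e with ⟨a, -⟩ | ⟨a, b⟩
  · exact h a
  · have := h a
    have := h b
    omega

lemma line_path {t : Conf} {γ : ℤ → V} (h : IsLine t γ) (a : ℤ) (n : ℕ) :
    Set.InjOn (fun k : ℕ => γ (a + k)) (Set.Iic n) := fun i _ j _ e => by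
  have := h.inj e
  omega

section

variable {t t' : Conf} {γ : ℤ → V} {M : ℕ} {T : Finset ℕ}

/-- The lowered edges of a line. -/
noncomputable def lowEdges (γ : ℤ → V) (T : Finset ℕ) : Finset (Sym2 V) :=
  T.image fun k : ℕ => s(γ k, γ (k + 1))

variable (hT : ∀ k ∈ T, k < M) (hle : ∀ e, t' e ≤ t e)
  (heq : ∀ e, e ∉ lowEdges γ T → t' e = t e)

include hT hle heq in
lemma seg_gain (h : IsLine t γ) {a : ℤ} {n : ℕ} (ha : a ≤ 0) (hn : (M : ℤ) ≤ a + n) :
    cost t (fun k : ℕ => γ (a + k)) n =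
      cost t' (fun k : ℕ => γ (a + k)) n + ∑ e ∈ lowEdges γ T, (t e - t' e) := by
  refine (cost_gain hle heq (line_path h a n)).2 fun e he => ?_
  obtain ⟨k, hk, rfl⟩ := Finset.mem_image.1 he
  have := hT k hk
  refine ⟨((k : ℤ) - a).toNat, by omega, ?_⟩
  show s(γ (a + ((((k : ℤ) - a).toNat : ℕ) : ℤ)), γ (a + (((((k : ℤ) - a).toNat + 1 : ℕ)) : ℤ))) = _
  rw [show a + ((((k : ℤ) - a).toNat : ℕ) : ℤ) = k by omega,
    show a + (((((k : ℤ) - a).toNat + 1 : ℕ)) : ℤ) = k + 1 by omega]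

include hT hle heq in
lemma isLine_lowered (hp' : ∀ e, 0 < t' e) (h : IsLine t γ) : IsLine t' γ := by
  refine ⟨h.inj, h.adj, fun i L => ?_⟩
  set a : ℤ := min i 0 with ha
  set n : ℕ := (max (i + L) M - a).toNat with hn
  have hbig : IsGeo t' (fun k : ℕ => γ (a + k)) n := by
    refine ⟨(h.geo a n).1, fun w N hw h0 hN => ?_⟩
    obtain ⟨w', N', hw', hi', hc', -⟩ :=
      PathIn.simplify (fun e => (hp' e).le) (K := Set.univ) (⟨hw, fun _ _ => trivial, h0, hN⟩ :
        PathIn Set.univ _ _ w N)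
    have h1 := (h.geo a n).2 w' N' hw'.path hw'.first hw'.last
    have h2 := (cost_gain hle heq hi').1
    have h3 := seg_gain hT hle heq h (show a ≤ 0 by omega) (show (M : ℤ) ≤ a + n by omega)
    linarith
  have hsub := hbig.sub (show (i - a).toNat ≤ (i - a).toNat + L by omega) (by omega)
  rw [show (i - a).toNat + L - (i - a).toNat = L by omega] at hsub
  convert hsub using 3 with k
  push_cast
  omega

end

/-- Lowering gives a position at `0`. -/
theorem jpos_lowered {t t' : Conf} (hp : ∀ e, 0 < t e) (hp' : ∀ e, 0 < t' e) (hx' : GeoEx t')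
    {γ : ℤ → V} (h : IsLine t γ) {R c D M : ℕ} (T : Finset ℕ) (hT : ∀ k ∈ T, k < M) (hMD : M ≤ D)
    (hle : ∀ e, t' e ≤ t e) (heq : ∀ e, e ∉ lowEdges γ T → t' e = t e)
    (hgain : 2 * ((R : ℝ) * c) < ∑ e ∈ lowEdges γ T, (t e - t' e))
    (hfar : ∀ a : ℕ, a ≤ M → (R : ℝ) * c ≤ Tf t (γ a) (γ D))
    (hrep : JRep t R c γ D) : IsLine t' γ ∧ JPos t' R c D γ := by
  classical
  have h' := isLine_lowered hT hle heq hp' h
  set W : Finset V := (Finset.range (M + 1)).image fun a : ℕ => γ a with hW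
  have hWe : ∀ e ∈ lowEdges γ T, ∀ v ∈ e, v ∈ W := by
    intro e he v hv
    obtain ⟨k, hk, rfl⟩ := Finset.mem_image.1 he
    have := hT k hk
    rcases Sym2.mem_iff.1 hv with rfl | rfl
    · exact Finset.mem_image.2 ⟨k, by simp; omega, rfl⟩
    · exact Finset.mem_image.2 ⟨k + 1, by simp; omega, by push_cast; rfl⟩
  have hout : ∀ j : ℤ, (M : ℤ) ≤ j → s(γ j, γ (j + 1)) ∉ lowEdges γ T := by
    intro j hj he
    obtain ⟨k, hk, hkj⟩ := Finset.mem_image.1 he
    have := line_edge_inj h.inj hkj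
    have := hT k hk
    omega
  have hsame : ∀ a b : ℤ, (M : ℤ) ≤ a → a ≤ b → Tf t' (γ a) (γ b) = Tf t (γ a) (γ b) := by
    intro a b ha hab
    rw [line_Tf hp' h' hab, line_Tf hp h hab]
    refine Finset.sum_congr rfl fun k _ => heq _ ?_
    have := hout (a + k) (by omega)
    rw [add_assoc] at this
    push_cast
    exact this
  have hmono : ∀ a b, Tf t' a b ≤ Tf t a b := fun a b =>
    T_mono_weight (fun e => (hp' e).le) hle (reach_univ a b)
  have htri : ∀ {s : Conf}, (∀ e, 0 < s e) → ∀ a b d, Tf s a d ≤ Tf s a b + Tf s b d :=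
    fun hs a b d => T_triangle (fun e => (hs e).le) (reach_univ a b) (reach_univ b d)
  have hshort : ∀ {s : Conf}, (∀ e, 0 < s e) → ∀ {x y : V} {P : ℕ → V} {l : ℕ}, l ≤ R →
      PathIn Set.univ x y P l → (∀ k < l, s s(P k, P (k + 1)) ≤ c) →
      Tf s y x ≤ (R : ℝ) * c := by
    intro s hs x y P l hl hP hw
    calc Tf s y x = Tf s x y := T_comm s _ y x
      _ ≤ cost s P l := T_le (fun e => (hs e).le) hP
      _ ≤ ∑ _k ∈ Finset.range l, (c : ℝ) :=
          Finset.sum_le_sum fun k hk => hw k (Finset.mem_range.1 hk)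
      _ ≤ (R : ℝ) * c := by
          rw [Finset.sum_const, Finset.card_range, nsmul_eq_mul]
          gcongr
  refine ⟨h', ?_, fun u hu ⟨y, P, l, hl, hP, hk, hJ⟩ => hJ ?_⟩
  · -- the mark at `D` survives
    obtain ⟨y, P, l, hl, hP, hk, hJ⟩ := hrep
    refine ⟨y, P, l, hl, hP, fun k hkl => ⟨(hle _).trans (hk k hkl).1, (hk k hkl).2⟩, ?_⟩
    rintro ⟨k₀, hk₀⟩
    have hyD : Tf t y (γ D) ≤ (R : ℝ) * c := hshort hp hl hP fun k hkl => (hk k hkl).1
    have key : ∀ n : ℤ, (D : ℤ) ≤ n → Tf t' y (γ n) = Tf t y (γ n) := by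
      intro n hn
      refine le_antisymm (hmono _ _) ?_
      obtain ⟨w, N, hw, hw0, hwN⟩ := hx' y (γ n)
      obtain ⟨j, hj, hjv, hc⟩ := last_exit (lowEdges γ T) heq W hWe w N
      have hT' : Tf t' y (γ n) = cost t' w N := by rw [← Tf_geo hp' hw, hw0, hwN]
      have hsuf : cost t' (fun i => w (j + i)) (N - j) ≤ cost t' w N := by
        rw [cost_seg_add t' w hj]
        exact le_add_of_nonneg_left (cost_nonneg (fun e => (hp' e).le) _ _)
      have hq : Tf t (w j) (γ n) ≤ cost t (fun i => w (j + i)) (N - j) :=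
        Tf_le hp (hw.1.shift hj le_rfl) (by simp)
          (by simp only [show j + (N - j) = N by omega, hwN])
      rcases hjv with hjv | hjv
      · rw [hjv, hw0] at hq
        linarith
      · obtain ⟨a, ha, hwa⟩ := Finset.mem_image.1 hjv
        rw [Finset.mem_range] at ha
        rw [← hwa] at hq
        have h1 := line_Tf_add hp h (show (a : ℤ) ≤ D by omega) hn
        have h2 := hfar a (by omega)
        have h3 := htri hp y (γ D) (γ n)
        linarith
    refine hJ ⟨max k₀ D, fun n hn => ?_⟩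
    have h1 := joins_mono hp' h' hk₀ (le_max_left k₀ (D : ℤ)) hn
    rwa [key n (le_trans (le_max_right _ _) hn), key _ (le_max_right _ _),
      hsame _ n (by omega) hn] at h1
  · -- no mark up to `0`
    have hwt : ∀ k < l, t s(P k, P (k + 1)) ≤ c := fun k hkl => by
      rw [← heq _ fun he => ?_]
      · exact (hk k hkl).1
      · obtain ⟨i, -, hi⟩ := Finset.mem_image.1 he
        exact (hk k hkl).2 ⟨i, hi⟩
    have hy : Tf t y (γ u) ≤ (R : ℝ) * c := hshort hp hl hP hwt
    refine ⟨M, fun n hn => le_antisymm (htri hp' _ _ _) ?_⟩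
    have hlow : Tf t' (γ u) (γ n) + ∑ e ∈ lowEdges γ T, (t e - t' e) = Tf t (γ u) (γ n) := by
      rw [line_Tf hp' h' (show u ≤ n by omega), line_Tf hp h (show u ≤ n by omega)]
      exact (seg_gain hT hle heq h hu (by omega)).symm
    have hlt : Tf t' y (γ n) < Tf t y (γ n) := by
      have h1 := htri hp' y (γ u) (γ n)
      have h2 := htri hp (γ u) y (γ n)
      have h3 := hmono y (γ u)
      have h4 : Tf t (γ u) y = Tf t y (γ u) := T_comm t _ _ _
      linarith
    obtain ⟨w, N, hw, hw0, hwN⟩ := hx' y (γ n)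
    obtain ⟨i, hi, hie⟩ : ∃ i < N, s(w i, w (i + 1)) ∈ lowEdges γ T := by
      by_contra hne
      push Not at hne
      have : cost t w N = cost t' w N :=
        Finset.sum_congr rfl fun i hi => (heq _ (hne i (Finset.mem_range.1 hi))).symm
      have h1 := Tf_le hp hw.1 hw0 hwN
      rw [this, ← Tf_geo hp' hw, hw0, hwN] at h1
      linarith
    obtain ⟨a, ha, hwa⟩ := Finset.mem_image.1 (hWe _ hie _ (Sym2.mem_mk_left _ _))
    rw [Finset.mem_range] at ha
    have hsplit : Tf t' y (γ n) = Tf t' y (w i) + Tf t' (w i) (γ n) := by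
      have g : GeoIn t' Set.univ y (γ n) w N :=
        geoIn_univ_iff.2 ⟨hw, isGeo_injOn hp' hw, hw0, hwN⟩
      exact g.T_split hi.le
    rw [hsplit, ← hwa, line_Tf_add hp' h' (show (a : ℤ) ≤ M by omega) hn]
    have := htri hp' y (γ (a : ℤ)) (γ (M : ℤ))
    linarith

end Vale.Agent.P158.NB.Join
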