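import Vale.Agent.P158.NB.Join.Det
import Vale.Agent.P158.NB.Lines.Count

/-!
# P158 (iv): a measurable core of the configurations with a marked line

When finitely many lines pass an edge, the windows of a large radius separate them, so the line
extending a window is a measurable function of the configuration.
-/

namespace Vale.Agent.P158.NB.Join

open Vale.Agent.P158 MeasureTheory Filter Topology Lines
open scoped ENNReal

/-! ## Windows -/

/-- A window extends to one of every larger radius. -/
lemma exists_extend {t : Conf} {e : Sym2 V} {H H' : ℕ} (hH : H ≤ H')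
    {w : Fin (2 * H + 2) → V} (hw : w ∈ wins t e H) :
    ∃ W ∈ wins t e H', ∀ i : Fin (2 * H + 2), ext W (H' - H + i) = w i := by
  choose! v hv hvw using hw
  let E : ℕ → Fin (2 * H' + 2) → V := fun j i => v (H' + j) (j + i)
  obtain ⟨x, hx⟩ : ∃ x, x ∈ e := ⟨v H' H', by
    rw [← (hv H' hH).mid]; exact Sym2.mem_mk_left _ _⟩
  obtain ⟨y, rfl⟩ := Sym2.mem_iff_exists.1 hx
  have hfin : (Set.range E).Finite := by
    let bd : ℤ := 2 * H' + 2
    refine (Set.Finite.pi fun _ : Fin (2 * H' + 2) =>
      ((Finset.Icc (x.1 - bd) (x.1 + bd) ×ˢ Finset.Icc (x.2 - bd) (x.2 + bd)).finite_toSet)).subset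
      ?_
    rintro _ ⟨j, rfl⟩ i -
    set k := H' + j with hk
    have hs := hv k (by omega)
    have hmid : |(v k k).1 - x.1| + |(v k k).2 - x.2| ≤ 1 := by
      have hadj := hs.geo.1 k (by omega)
      rcases Sym2.eq_iff.1 hs.mid with ⟨p, q⟩ | ⟨p, q⟩
      · rw [p]; simp
      · unfold Adj at hadj
        rw [q] at hadj
        exact le_of_eq hadj
    have hd : |(v k (j + i)).1 - (v k k).1| + |(v k (j + i)).2 - (v k k).2| ≤ bd - 1 := by
      rcases le_total (j + (i : ℕ)) k with h | h
      · have := path_dist (hs.geo.1.shift (show j + (i : ℕ) ≤ k from h) (by omega))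
        simp only [add_zero, show j + (i : ℕ) + (k - (j + i)) = k by omega] at this
        rw [abs_sub_comm (v k k).1, abs_sub_comm (v k k).2] at this
        refine this.trans ?_
        omega
      · have := path_dist (hs.geo.1.shift (show k ≤ j + (i : ℕ) from h) (by omega))
        simp only [add_zero, show k + (j + i - k) = j + (i : ℕ) by omega] at this
        refine this.trans ?_
        omega
    have := abs_nonneg ((v k k).1 - x.1)
    have := abs_nonneg ((v k k).2 - x.2)
    have := abs_nonneg ((v k (j + i)).1 - (v k k).1)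
    have := abs_nonneg ((v k (j + i)).2 - (v k k).2)
    have h1 := abs_sub_le (v k (j + i)).1 (v k k).1 x.1
    have h2 := abs_sub_le (v k (j + i)).2 (v k k).2 x.2
    have g1 := abs_le.1 (show |(v k (j + i)).1 - x.1| ≤ bd by linarith)
    have g2 := abs_le.1 (show |(v k (j + i)).2 - x.2| ≤ bd by linarith)
    simp only [Finset.coe_product, Set.mem_prod, Finset.coe_Icc, Set.mem_Icc]
    exact ⟨⟨by linarith, by linarith⟩, by linarith, by linarith⟩
  have : Finite (Set.range E) := hfin.to_subtype
  obtain ⟨W, hWinf⟩ := Finite.exists_infinite_fiber (Set.rangeFactorization E)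
  rw [Set.infinite_coe_iff] at hWinf
  refine ⟨W.1, fun k hk => ?_, fun i => ?_⟩
  · obtain ⟨j, hj, hjk⟩ := hWinf.exists_gt k
    have hE : E j = W.1 := congrArg Subtype.val (Set.mem_singleton_iff.1 hj)
    have hs := hv (H' + j) (by omega)
    set d := H' + j - k with hd
    refine ⟨fun i => v (H' + j) (d + i),
      ⟨by simpa [show d + (2 * k + 1) - d = 2 * k + 1 by omega] using
        hs.geo.sub (show d ≤ d + (2 * k + 1) by omega) (by omega), fun a ha b hb hab => ?_, ?_⟩,
      fun i => ?_⟩
    · simp only [Set.mem_Iic] at ha hb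
      have := hs.inj (show d + a ∈ Set.Iic _ by simp; omega)
        (show d + b ∈ Set.Iic _ by simp; omega) hab
      omega
    · have := hs.mid
      show s(v (H' + j) (d + k), v (H' + j) (d + (k + 1))) = _
      rwa [show d + (k + 1) = H' + j + 1 by omega, show d + k = H' + j by omega]
    · rw [← hE]
      simp only [E]
      congr 1
      omega
  · obtain ⟨j, hj⟩ := hWinf.nonempty
    have hE : E j = W.1 := congrArg Subtype.val (Set.mem_singleton_iff.1 hj)
    rw [← hE, ← hvw (H' + j) (by omega) i]
    simp only [ext, E]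
    congr 1
    omega

/-- The central part of radius `H₀` of a window. -/
def res (H₀ : ℕ) {H : ℕ} (W : Fin (2 * H + 2) → V) : Fin (2 * H₀ + 2) → V :=
  fun i => ext W (H - H₀ + i)

/-- When finitely many lines pass `e`, some radius separates all windows. -/
lemma exists_sep {t : Conf} {e : Sym2 V} (hfin : Nln t e < ⊤) :
    ∃ H₀, ∀ H, H₀ ≤ H → Set.InjOn (res H₀ (H := H)) (wins t e H) := by
  obtain ⟨N, hN⟩ := ENNReal.exists_nat_gt hfin.ne
  have hb : ∀ H, (wins t e H).Finite ∧ (wins t e H).ncard ≤ N := fun H => by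
    have h1 : (wins t e H).encard ≤ (N : ℕ∞) := by
      refine ENat.toENNReal_le.1 ?_
      rw [ENat.toENNReal_coe]
      exact le_trans (le_iSup (fun H => ((wins t e H).encard : ℝ≥0∞)) H) hN.le
    have hf := Set.finite_of_encard_le_coe h1
    rw [← hf.cast_ncard_eq, Nat.cast_le] at h1
    exact ⟨hf, h1⟩
  obtain ⟨_, ⟨H₀, rfl⟩, hmax⟩ :=
    ((Set.finite_le_nat N).subset (by rintro _ ⟨H, rfl⟩; exact (hb H).2 :
      Set.range (fun H => (wins t e H).ncard) ⊆ {n | n ≤ N})).exists_maximal (Set.range_nonempty _)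
  refine ⟨H₀, fun H hH => Set.injOn_of_ncard_image_eq (le_antisymm
    (Set.ncard_image_le (hb H).1) ?_) (hb H).1⟩
  have hsub : wins t e H₀ ⊆ res H₀ '' wins t e H := fun w hw => by
    obtain ⟨W, hW, hWw⟩ := exists_extend hH hw
    exact ⟨W, hW, funext hWw⟩
  have hle : (wins t e H).ncard ≤ (wins t e H₀).ncard := by
    by_contra h
    exact h (hmax ⟨H, rfl⟩ (le_of_not_ge h))
  exact hle.trans (Set.ncard_le_ncard hsub ((hb H).1.image _))

/-! ## The line extending a window -/

/-- The possible values at distance `d` from the middle, for extensions of `w`. -/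
def vals (t : Conf) (e : Sym2 V) (H₀ : ℕ) (w : Fin (2 * H₀ + 2) → V) (d : ℤ) : Set V :=
  {z | ∃ W ∈ wins t e (H₀ + d.natAbs),
    res H₀ W = w ∧ ext W (((H₀ + d.natAbs : ℕ) : ℤ) + d).toNat = z}

open Classical in
/-- The common value, if there is one. -/
noncomputable def extLine (t : Conf) (e : Sym2 V) (H₀ : ℕ) (w : Fin (2 * H₀ + 2) → V) (d : ℤ) : V :=
  if h : ∃ z, vals t e H₀ w d = {z} then h.choose else 0

lemma measurable_extLine (e : Sym2 V) (H₀ : ℕ) (w : Fin (2 * H₀ + 2) → V) (d : ℤ) :
    Measurable fun t : Conf => extLine t e H₀ w d := by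
  have hv : ∀ y, Measurable fun t => vals t e H₀ w d = {y} := fun y => by
    simp only [Set.eq_singleton_iff_unique_mem, vals, Set.mem_ofPred_eq]
    refine Measurable.and ?_ (Measurable.forall fun z => Measurable.imp ?_ measurable_const) <;>
      exact Measurable.exists fun W =>
        (measurableSet_setOfPred.1 (measurableSet_wins _ _ W)).and measurable_const
  refine measurable_to_countable' fun y => ?_
  have : (fun t => extLine t e H₀ w d) ⁻¹' {y} =
      {t | vals t e H₀ w d = {y} ∨ (y = 0 ∧ ∀ z, ¬ vals t e H₀ w d = {z})} := by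
    ext t
    simp only [Set.mem_preimage, Set.mem_singleton_iff, extLine, Set.mem_ofPred_eq]
    by_cases h : ∃ z, vals t e H₀ w d = {z}
    · rw [dif_pos h]
      conv_rhs => rw [h.choose_spec]
      simp
    · rw [dif_neg h]
      push Not at h
      simp [h, eq_comm]
  rw [this]
  exact measurableSet_setOfPred.2
    ((hv y).or (measurable_const.and (Measurable.forall fun z => (hv z).not)))

lemma extLine_line {t : Conf} {e : Sym2 V} {H₀ : ℕ}
    (hsep : ∀ H, H₀ ≤ H → Set.InjOn (res H₀ (H := H)) (wins t e H)) {γ : ℤ → V}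
    (h : IsLine t γ) {k : ℤ} (he : s(γ k, γ (k + 1)) = e) (d : ℤ) :
    extLine t e H₀ (lineWin H₀ γ k) d = γ (k + d) := by
  set H := H₀ + d.natAbs with hHdef
  have hext : ∀ n, n ≤ 2 * H + 1 → ext (lineWin H γ k) n = γ (k - H + (n : ℕ)) := fun n hn =>
    ext_restrict (fun j : ℕ => γ (k - H + (j : ℕ))) (2 * H + 1) n hn
  have hres : res H₀ (lineWin H γ k) = lineWin H₀ γ k := by
    funext i
    simp only [res]
    rw [hext _ (by omega)]
    simp only [lineWin]
    congr 1
    omega
  have hmid : ext (lineWin H γ k) (((H : ℕ) : ℤ) + d).toNat = γ (k + d) := by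
    rw [hext _ (by omega)]
    congr 1
    omega
  have hv : vals t e H₀ (lineWin H₀ γ k) d = {γ (k + d)} := by
    refine Set.eq_singleton_iff_unique_mem.2 ⟨⟨_, lineWin_mem h H he, hres, hmid⟩, ?_⟩
    rintro z ⟨W, hW, hWr, rfl⟩
    obtain rfl := hsep H (by omega) hW (lineWin_mem h H he) (hWr.trans hres.symm)
    exact hmid
  have hex : ∃ z, vals t e H₀ (lineWin H₀ γ k) d = {z} := ⟨_, hv⟩
  rw [extLine, dif_pos hex]
  exact Set.singleton_eq_singleton_iff.1 (hex.choose_spec.symm.trans hv)

/-! ## Measurability along a measurable line -/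

lemma measurable_at {β γ : Type*} [MeasurableSpace β] [MeasurableSpace γ] [Countable β]
    [MeasurableSingletonClass β] {L : Conf → β} (hL : Measurable L) {F : β → Conf → γ}
    (hF : ∀ q, Measurable (F q)) : Measurable fun t => F (L t) t :=
  (measurable_from_prod_countable_right (f := fun p : β × Conf => F p.1 p.2) hF).comp
    (hL.prodMk measurable_id)

variable {L : Conf → ℤ → V} (hL : ∀ i, Measurable fun t => L t i)

include hL in
lemma measurable_isLine : Measurable fun t => IsLine t (L t) := by
  have : (fun t => IsLine t (L t)) = fun t => (∀ i j, L t i = L t j → i = j) ∧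
      (∀ i, Adj (L t i) (L t (i + 1))) ∧
      ∀ (i : ℤ) (n : ℕ), IsGeo t (ext fun j : Fin (n + 1) => L t (i + ((j : ℕ) : ℤ))) n := by
    funext t
    refine propext ⟨fun h => ⟨fun i j e => h.inj e, h.adj, fun i n => ?_⟩,
      fun h => ⟨fun i j e => h.1 i j e, h.2.1, fun i n => ?_⟩⟩
    · exact isGeo_congr' (fun j hj => (ext_restrict (fun k : ℕ => L t (i + k)) n j hj).symm)
        (h.geo i n)
    · exact isGeo_congr' (fun j hj => ext_restrict (fun k : ℕ => L t (i + k)) n j hj) (h.2.2 i n)
  rw [this]
  refine Measurable.and ?_ (Measurable.and ?_ ?_)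
  · refine Measurable.forall fun i => Measurable.forall fun j => Measurable.imp ?_ measurable_const
    exact measurable_at ((hL i).prodMk (hL j)) (F := fun q _ => q.1 = q.2) fun q => measurable_const
  · exact Measurable.forall fun i =>
      measurable_at ((hL i).prodMk (hL (i + 1))) (F := fun q _ => Adj q.1 q.2) fun q =>
        measurable_const
  · refine Measurable.forall fun i => Measurable.forall fun n => ?_
    exact measurable_at (measurable_pi_lambda _ fun j : Fin (n + 1) => hL (i + ((j : ℕ) : ℤ)))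
      (F := fun q t => IsGeo t (ext q) n) fun q => measurableSet_setOfPred.1 (measurableSet_isGeo _ _)

include hL in
lemma measurable_joins (x : V) : Measurable fun t => Joins t (L t) x := by
  refine Measurable.exists fun k => Measurable.forall fun n => Measurable.imp measurable_const ?_
  exact measurable_at ((hL k).prodMk (hL n))
    (F := fun q t => Tf t x q.2 = Tf t x q.1 + Tf t q.1 q.2) fun q =>
      measurableSet_setOfPred.1 (measurableSet_eq_fun (Tf_meas _ _) ((Tf_meas _ _).add (Tf_meas _ _)))

include hL in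
lemma measurable_lineUses (e : Sym2 V) : Measurable fun t => LineUses (L t) e :=
  Measurable.exists fun i => measurable_at ((hL i).prodMk (hL (i + 1)))
    (F := fun q _ => s(q.1, q.2) = e) fun _ => measurable_const

include hL in
lemma measurable_jrep (R c : ℕ) (u : ℤ) : Measurable fun t => JRep t R c (L t) u := by
  have : (fun t => JRep t R c (L t) u) = fun t => ∃ (y : V) (l : ℕ) (q : Fin (l + 1) → V), l ≤ R ∧
      (IsPath (ext q) l ∧ ext q l = y) ∧ L t u = ext q 0 ∧
      (∀ k, k < l → t s(ext q k, ext q (k + 1)) ≤ c ∧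
        ¬ LineUses (L t) s(ext q k, ext q (k + 1))) ∧ ¬ Joins t (L t) y := by
    funext t
    refine propext ⟨?_, ?_⟩
    · rintro ⟨y, P, l, hl, hP, hk, hJ⟩
      have hc := ext_restrict P l
      refine ⟨y, l, fun j => P j, hl, ⟨isPath_congr' (fun i hi => (hc i hi).symm) hP.path, ?_⟩, ?_,
        fun k hkl => ?_, hJ⟩
      · rw [hc l le_rfl, hP.last]
      · rw [hc 0 (Nat.zero_le _), hP.first]
      · rw [hc k hkl.le, hc (k + 1) hkl]
        exact hk k hkl
    · rintro ⟨y, l, q, hl, ⟨hp, hq⟩, h0, hk, hJ⟩
      exact ⟨y, ext q, l, hl, ⟨hp, fun _ _ => trivial, h0.symm, hq⟩, hk, hJ⟩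
  rw [this]
  refine Measurable.exists fun y => Measurable.exists fun l => Measurable.exists fun q =>
    measurable_const.and (measurable_const.and (Measurable.and ?_ (Measurable.and ?_ ?_)))
  · exact measurable_at (hL u) (F := fun z _ => z = ext q 0) fun z => measurable_const
  · exact Measurable.forall fun k => Measurable.imp measurable_const (Measurable.and
      (measurableSet_setOfPred.1 (measurableSet_le (measurable_pi_apply _) measurable_const))
      (measurable_lineUses hL _).not)
  · exact (measurable_joins hL y).not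

/-! ## The event and its core -/

/-- A line through the prescribed window with strong step `k`, marked at `D` and at no `u ≤ 0`. -/
def Cand (θ : ℝ) (R c : ℕ) {D : ℕ} (q : Fin (D + 1) → V) (k : ℕ) : Set Conf :=
  {t | θ ≤ t s(ext q k, ext q (k + 1)) ∧
    ∃ γ : ℤ → V, IsLine t γ ∧ (∀ j : Fin (D + 1), γ (j : ℕ) = q j) ∧ JPos t R c D γ}

theorem exists_core (θ : ℝ) (R c : ℕ) {D : ℕ} (q : Fin (D + 1) → V) {k : ℕ} (hk : k < D) :
    ∃ A, MeasurableSet A ∧ A ⊆ Cand θ R c q k ∧
      Cand θ R c q k ∩ {t | Nln t s(ext q k, ext q (k + 1)) < ⊤} ⊆ A := by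
  set e := s(ext q k, ext q (k + 1)) with he
  set L : (H₀ : ℕ) → (Fin (2 * H₀ + 2) → V) → Conf → ℤ → V :=
    fun H₀ w t i => extLine t e H₀ w (i - k) with hLdef
  refine ⟨{t | θ ≤ t e ∧ ∃ (H₀ : ℕ) (w : Fin (2 * H₀ + 2) → V), IsLine t (L H₀ w t) ∧
    (∀ j : Fin (D + 1), L H₀ w t (j : ℕ) = q j) ∧ JPos t R c D (L H₀ w t)}, ?_, ?_, ?_⟩
  · refine measurableSet_setOfPred.2 (Measurable.and
      (measurableSet_setOfPred.1 (measurableSet_le measurable_const (measurable_pi_apply _)))
      (Measurable.exists fun H₀ => Measurable.exists fun w => ?_))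
    have hm : ∀ i, Measurable fun t => L H₀ w t i := fun i => measurable_extLine _ _ _ _
    refine (measurable_isLine hm).and (Measurable.and (Measurable.forall fun j => ?_) ?_)
    · exact measurable_at (hm _) (F := fun z _ => z = q j) fun z => measurable_const
    · exact (measurable_jrep hm R c _).and (Measurable.forall fun u =>
        Measurable.imp measurable_const (measurable_jrep hm R c u).not)
  · rintro t ⟨hθ, H₀, w, h1, h2, h3⟩
    exact ⟨hθ, _, h1, h2, h3⟩
  · rintro t ⟨⟨hθ, γ, h1, h2, h3⟩, hfin⟩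
    obtain ⟨H₀, hsep⟩ := exists_sep hfin
    have hq : ∀ j : ℕ, j ≤ D → γ (j : ℕ) = ext q j := fun j hj => by
      have := h2 ⟨j, by omega⟩
      simpa [ext, min_eq_left hj] using this
    have hγ : L H₀ (lineWin H₀ γ (k : ℤ)) t = γ := by
      funext i
      have := extLine_line hsep h1 (k := (k : ℤ)) (e := e) (by
        rw [he, ← hq k hk.le, ← hq (k + 1) hk]
        push_cast
        rfl) (i - k)
      simpa [hLdef] using this
    exact ⟨hθ, H₀, lineWin H₀ γ (k : ℤ), by rw [hγ]; exact ⟨h1, h2, h3⟩⟩

end Vale.Agent.P158.NB.Join
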